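import Vale.Agent.P307.Relational.Defs
import Vale.Agent.P307.Main

/-!
# P307: a structure with small components as a coloured set of blocks
-/

universe u

open Cardinal hiding univ
open Set

namespace Vale.Agent.P307.Relational

variable {V : Vocab.{u}}

namespace Struct

/-- The identity isomorphism. -/
def Iso.rfl' (M : Struct V) : M.Iso M := ⟨Equiv.refl _, fun _ _ => Iff.rfl⟩

/-- The inverse isomorphism. -/
def Iso.symm {M N : Struct V} (e : M.Iso N) : N.Iso M where
  toEquiv := e.toEquiv.symm
  holds_iff := fun r x => by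
    rw [← e.holds_iff r fun i => e.toEquiv.symm (x i)]
    simp

/-- Composition of isomorphisms. -/
def Iso.trans {M N P : Struct V} (e : M.Iso N) (f : N.Iso P) : M.Iso P where
  toEquiv := e.toEquiv.trans f.toEquiv
  holds_iff := fun r x => (f.holds_iff r _).trans (e.holds_iff r x)

theorem Iso.connected {M N : Struct V} (e : M.Iso N) {a b : M.carrier} (h : M.Connected a b) :
    N.Connected (e.toEquiv a) (e.toEquiv b) := by
  induction h with
  | rel x y h =>
    obtain ⟨r, t, i, j, ht, rfl, rfl⟩ := h
    exact .rel _ _ ⟨r, _, i, j, (e.holds_iff r t).2 ht, rfl, rfl⟩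
  | refl x => exact .refl _
  | symm x y _ ih => exact .symm _ _ ih
  | trans x y z _ _ ih₁ ih₂ => exact .trans _ _ _ ih₁ ih₂

theorem Iso.connected_iff {M N : Struct V} (e : M.Iso N) {a b : M.carrier} :
    N.Connected (e.toEquiv a) (e.toEquiv b) ↔ M.Connected a b := by
  refine ⟨fun h => ?_, e.connected⟩
  have h' : M.Connected (e.symm.toEquiv (e.toEquiv a)) (e.symm.toEquiv (e.toEquiv b)) :=
    e.symm.connected h
  simpa [Iso.symm] using h'

/-- Nonempty and connected. -/
def IsBlock (M : Struct V) : Prop := Nonempty M.carrier ∧ ∀ a b, M.Connected a b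

theorem Iso.isBlock {M N : Struct V} (e : M.Iso N) (h : M.IsBlock) : N.IsBlock := by
  refine ⟨h.1.map e.toEquiv, fun a b => ?_⟩
  simpa using e.connected (h.2 (e.toEquiv.symm a) (e.toEquiv.symm b))

/-- The component of a point. -/
def component (M : Struct V) (a : M.carrier) : Struct V := M.restrict {b | M.Connected a b}

theorem isBlock_component (M : Struct V) (a : M.carrier) : (M.component a).IsBlock := by
  refine ⟨⟨⟨a, .refl a⟩⟩, ?_⟩
  suffices H : ∀ {x y : M.carrier}, M.Connected x y →
      ∀ (hx : M.Connected a x) (hy : M.Connected a y),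
        (M.component a).Connected ⟨x, hx⟩ ⟨y, hy⟩ from fun ⟨x, hx⟩ ⟨y, hy⟩ =>
    H ((hx.symm _ _).trans _ _ _ hy) hx hy
  intro x y h
  induction h with
  | rel x y h =>
    intro hx hy
    obtain ⟨r, t, i, j, ht, rfl, rfl⟩ := h
    exact .rel _ _ ⟨r, fun k => ⟨t k,
      hx.trans _ _ _ (.rel _ _ ⟨r, t, i, k, ht, rfl, rfl⟩)⟩, i, j, ht, rfl, rfl⟩
  | refl x => exact fun _ _ => .refl _
  | symm x y _ ih => exact fun hx hy => .symm _ _ (ih hy hx)
  | trans x y z hxy _ ih₁ ih₂ =>
    exact fun hx hz => .trans _ _ _ (ih₁ hx (hx.trans _ _ _ hxy)) (ih₂ (hx.trans _ _ _ hxy) hz)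

end Struct

variable (V) in
/-- The index type of the colours: codes of structures on subsets of a set of size `lam`. -/
def Index (lam : Cardinal.{u}) : Type u := lam.out ⊕ Σ r : V.Sym, (Fin (V.ar r + 1) → lam.out)

variable {lam : Cardinal.{u}}

theorem mk_index_le (hlam : ℵ₀ ≤ lam) (hV : #V.Sym ≤ lam) : #(Index V lam) ≤ lam := by
  have h : ∀ r, #(Fin (V.ar r + 1) → lam.out) ≤ lam := fun r => by
    refine (mk_arrow _ _).trans_le ?_
    simp only [Cardinal.lift_id, Cardinal.lift_uzero, mk_fin, mk_out, lift_natCast, power_natCast]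
    exact pow_le hlam natCast_lt_aleph0
  have h' : #(Σ r : V.Sym, (Fin (V.ar r + 1) → lam.out)) ≤ lam := by
    rw [mk_sigma]
    refine (sum_le_sum _ (fun _ => lam) h).trans ((sum_const' _ _).trans_le ?_)
    exact (mul_le_mul' hV le_rfl).trans (mul_eq_self hlam).le
  show #(lam.out ⊕ _) ≤ lam
  rw [← add_def, mk_out]
  exact (add_le_add le_rfl h').trans (add_eq_self hlam).le

/-- The structure coded by a colour. -/
abbrev decode (c : Index V lam → Prop) : Struct V :=
  ⟨{l // c (.inl l)}, fun r x => c (.inr ⟨r, fun i => (x i).1⟩)⟩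

/-- A chosen code of a structure, the same for isomorphic structures. -/
noncomputable def colour (B : Struct V) : Index V lam → Prop :=
  Classical.epsilon fun c => Nonempty ((decode c).Iso B)

theorem decode_colour {B : Struct V} (hB : #B.carrier ≤ lam) :
    Nonempty ((decode (colour (lam := lam) B)).Iso B) := by
  refine Classical.epsilon_spec (p := fun c => Nonempty ((decode c).Iso B)) ?_
  rw [← mk_out lam] at hB
  obtain ⟨f⟩ := hB
  refine ⟨fun t => match t with
    | .inl l => l ∈ range f
    | .inr ⟨r, y⟩ => ∃ x, (fun i => f (x i)) = y ∧ B.holds r x,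
    ⟨⟨(Equiv.ofInjective f f.injective).symm, fun r x => ?_⟩⟩⟩
  have key : ∀ i, f ((Equiv.ofInjective f f.injective).symm (x i)) = (x i).1 := fun i =>
    congrArg Subtype.val ((Equiv.ofInjective f f.injective).apply_symm_apply (x i))
  refine ⟨fun h => ⟨_, funext key, h⟩, fun ⟨y, hy, h⟩ => ?_⟩
  have e : y = fun i => (Equiv.ofInjective f f.injective).symm (x i) :=
    funext fun i => f.injective ((congrFun hy i).trans (key i).symm)
  exact e ▸ h

theorem colour_congr {B B' : Struct V} (e : B.Iso B') :
    colour (lam := lam) B = colour (lam := lam) B' := by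
  unfold colour
  congr 1
  funext c
  exact propext ⟨fun ⟨f⟩ => ⟨f.trans e⟩, fun ⟨f⟩ => ⟨f.trans e.symm⟩⟩

/-- A colour that is the chosen code of a block. -/
def Valid (c : Index V lam → Prop) : Prop := colour (decode c) = c ∧ (decode c).IsBlock

theorem valid_colour {B : Struct V} (hB : #B.carrier ≤ lam) (hb : B.IsBlock) :
    Valid (colour (lam := lam) B) := by
  obtain ⟨e⟩ := decode_colour hB
  exact ⟨colour_congr e, e.symm.isBlock hb⟩

theorem mk_decode_le (c : Index V lam → Prop) : #(decode c).carrier ≤ lam :=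
  (mk_subtype_le _).trans_eq (mk_out lam)

/-- The disjoint union of the blocks of a coloured set. -/
abbrev realise (N : Str (Index V lam)) : Struct V :=
  ⟨Σ x : N.carrier, (decode (N.sat x)).carrier, fun r y =>
    ∃ (x : N.carrier) (z : Fin (V.ar r + 1) → (decode (N.sat x)).carrier),
      (decode (N.sat x)).holds r z ∧ y = fun i => ⟨x, z i⟩⟩

theorem decode_holds_cast {c c' : Index V lam → Prop} (h : c = c') (r : V.Sym)
    (z : Fin (V.ar r + 1) → (decode c).carrier) :
    (decode c').holds r (fun i => cast (congrArg (fun d => (decode d).carrier) h) (z i)) ↔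
      (decode c).holds r z := by
  subst h; exact Iff.rfl

/-- Isomorphic coloured sets have isomorphic realisations. -/
noncomputable def realiseIso {N N' : Str (Index V lam)} (e : N.Iso N') :
    (realise N).Iso (realise N') where
  toEquiv := Equiv.sigmaCongr (β₂ := fun x' => (decode (N'.sat x')).carrier) e.toEquiv fun x =>
    Equiv.cast (congrArg (fun d => (decode d).carrier) (e.sat_eq x).symm)
  holds_iff := fun r y => by
    constructor
    · rintro ⟨x', z', hz, hy⟩
      obtain ⟨x, rfl⟩ := e.toEquiv.surjective x'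
      let z : Fin (V.ar r + 1) → (decode (N.sat x)).carrier := fun i =>
        cast (congrArg (fun d => (decode d).carrier) (e.sat_eq x)) (z' i)
      refine ⟨x, z, (decode_holds_cast (e.sat_eq x) r z').2 hz, ?_⟩
      funext i
      apply (Equiv.sigmaCongr (β₂ := fun x' => (decode (N'.sat x')).carrier) e.toEquiv fun w =>
        Equiv.cast (congrArg (fun d => (decode d).carrier) (e.sat_eq w).symm)).injective
      refine (congrFun hy i).trans (Sigma.ext rfl (heq_of_eq ?_))
      exact ((cast_cast _ _ _).trans (cast_eq _ _)).symm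
    · rintro ⟨x, z, hz, rfl⟩
      exact ⟨e.toEquiv x, _, (decode_holds_cast (e.sat_eq x).symm r z).2 hz, rfl⟩

theorem sigma_eq_of_val {α : Type*} {P : α → Type*} {s : Set α} {q : Σ w : s, P w.1} {x : α}
    {z : P x} (hx : x ∈ s) (h : (⟨q.1.1, q.2⟩ : Σ w, P w) = ⟨x, z⟩) : q = ⟨⟨x, hx⟩, z⟩ := by
  obtain ⟨⟨w, hw⟩, v⟩ := q
  cases h
  rfl

/-- The blocks over a set form the substructure on its preimage. -/
def realiseRestrict (N : Str (Index V lam)) (s : Set N.carrier) :
    (realise (N.restrict s)).Iso ((realise N).restrict (Sigma.fst ⁻¹' s)) where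
  toEquiv :=
    { toFun := fun p => ⟨⟨p.1.1, p.2⟩, p.1.2⟩
      invFun := fun p => ⟨⟨p.1.1, p.2⟩, p.1.2⟩
      left_inv := fun _ => rfl
      right_inv := fun _ => rfl }
  holds_iff := fun r y => by
    constructor
    · rintro ⟨x, z, hz, hy⟩
      have hx : x ∈ s := by
        have h1 : (y 0).1.1 = x := congrArg Sigma.fst (congrFun hy 0)
        exact h1 ▸ (y 0).1.2
      refine ⟨⟨x, hx⟩, z, hz, funext fun i => ?_⟩
      exact sigma_eq_of_val (P := fun w => (decode (N.sat w)).carrier) hx (congrFun hy i)
    · rintro ⟨x, z, hz, rfl⟩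
      exact ⟨x.1, z, hz, rfl⟩

theorem connected_realise {N : Str (Index V lam)} (hN : ∀ x, Valid (N.sat x))
    (p q : (realise N).carrier) : (realise N).Connected p q ↔ p.1 = q.1 := by
  constructor
  · intro h
    induction h with
    | rel a b h =>
      obtain ⟨r, _, i, j, ⟨x, z, -, rfl⟩, rfl, rfl⟩ := h
      rfl
    | refl a => rfl
    | symm a b _ ih => exact ih.symm
    | trans a b c _ _ ih₁ ih₂ => exact ih₁.trans ih₂
  · obtain ⟨x, a⟩ := p
    obtain ⟨y, b⟩ := q
    rintro rfl
    have h := (hN x).2.2 a b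
    induction h with
    | rel a b h =>
      obtain ⟨r, t, i, j, ht, rfl, rfl⟩ := h
      exact .rel _ _ ⟨r, fun k => ⟨x, t k⟩, i, j, ⟨x, t, ht, rfl⟩, rfl, rfl⟩
    | refl a => exact .refl _
    | symm a b _ ih => exact .symm _ _ ih
    | trans a b c _ _ ih₁ ih₂ => exact .trans _ _ _ ih₁ ih₂

/-- A point's component in a realisation is its block. -/
theorem component_realise {N : Str (Index V lam)} (hN : ∀ x, Valid (N.sat x))
    (p : (realise N).carrier) :
    Nonempty (((realise N).component p).Iso (decode (N.sat p.1))) := by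
  obtain ⟨x, a⟩ := p
  let f : (decode (N.sat x)).carrier → ((realise N).component ⟨x, a⟩).carrier :=
    fun b => ⟨⟨x, b⟩, (connected_realise hN _ _).2 rfl⟩
  have hf : Function.Bijective f := ⟨fun b b' h => eq_of_heq (Sigma.mk.inj (congrArg Subtype.val h)).2,
    fun ⟨⟨y, b⟩, hb⟩ => by
      obtain rfl : x = y := (connected_realise hN _ _).1 hb
      exact ⟨b, rfl⟩⟩
  let e : (decode (N.sat x)).Iso ((realise N).component ⟨x, a⟩) :=
    ⟨Equiv.ofBijective f hf, fun r z => by
      constructor
      · rintro ⟨y, w, hw, hy⟩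
        obtain rfl : x = y := congrArg Sigma.fst (congrFun hy 0)
        obtain rfl : z = w := funext fun i => eq_of_heq (Sigma.mk.inj (congrFun hy i)).2
        exact hw
      · exact fun h => ⟨x, z, h, rfl⟩⟩
  exact ⟨e.symm⟩

/-- Isomorphic realisations come from isomorphic coloured sets. -/
theorem nonempty_iso_of_realise {N N' : Str (Index V lam)} (hN : ∀ x, Valid (N.sat x))
    (hN' : ∀ x, Valid (N'.sat x)) (e : (realise N).Iso (realise N')) :
    Nonempty (N.Iso N') := by
  have pt : ∀ x, Nonempty (decode (N.sat x)).carrier := fun x => (hN x).2.1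
  let p : N.carrier → (realise N).carrier := fun x => ⟨x, (pt x).some⟩
  let π : N.carrier → N'.carrier := fun x => (e.toEquiv (p x)).1
  have hbij : Function.Bijective π := by
    refine ⟨fun x y h => ?_, fun x' => ?_⟩
    · exact (connected_realise hN (p x) (p y)).1
        (e.connected_iff.1 ((connected_realise hN' _ _).2 h))
    · let q := e.toEquiv.symm ⟨x', (hN' x').2.1.some⟩
      refine ⟨q.1, ?_⟩
      have := e.connected ((connected_realise hN (p q.1) q).2 rfl)
      rw [connected_realise hN'] at this
      exact this.trans (congrArg Sigma.fst (e.toEquiv.apply_symm_apply _))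
  refine ⟨⟨Equiv.ofBijective π hbij, fun x => ?_⟩⟩
  obtain ⟨a⟩ := component_realise hN (p x)
  obtain ⟨b⟩ := component_realise hN' (e.toEquiv (p x))
  let c : ((realise N).component (p x)).Iso ((realise N').component (e.toEquiv (p x))) :=
    ⟨e.toEquiv.subtypeEquiv fun _ => e.connected_iff.symm, fun r y => e.holds_iff r _⟩
  have := colour_congr (lam := lam) (((a.symm.trans c).trans b))
  rw [(hN x).1, (hN' _).1] at this
  exact this.symm

/-- A structure with components of size at most `lam` is the realisation of its blocks. -/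
theorem exists_realise {M : Struct V} (hM : M.ComponentsLE lam) :
    ∃ N : Str (Index V lam), (∀ x, Valid (N.sat x)) ∧ Nonempty ((realise N).Iso M) := by
  let S : Setoid M.carrier := ⟨M.Connected, Relation.EqvGen.is_equivalence _⟩
  let rep : Quotient S → M.carrier := Quotient.out
  let N : Str (Index V lam) := ⟨Quotient S, fun q => colour (M.component (rep q))⟩
  have hrep : ∀ a, M.Connected (rep (Quotient.mk S a)) a := fun a => Quotient.mk_out (s := S) a
  let e := fun q : Quotient S => (decode_colour (lam := lam) (B := M.component (rep q)) (hM (rep q))).some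
  let F : (realise N).carrier → M.carrier := fun p => ((e p.1).toEquiv p.2).1
  have hF : ∀ q b, Quotient.mk S (F ⟨q, b⟩) = q := fun q b =>
    (Quotient.sound (s := S) (((e q).toEquiv b).2.symm _ _)).trans (Quotient.out_eq q)
  have hbij : Function.Bijective F := by
    refine ⟨fun ⟨q, b⟩ ⟨q', b'⟩ h => ?_, fun a => ?_⟩
    · obtain rfl : q = q' := by rw [← hF q b, h, hF q' b']
      exact Sigma.ext rfl (heq_of_eq ((e q).toEquiv.injective (Subtype.ext h)))
    · exact ⟨⟨Quotient.mk S a, (e (Quotient.mk S a)).toEquiv.symm ⟨a, hrep a⟩⟩,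
        congrArg Subtype.val ((e (Quotient.mk S a)).toEquiv.apply_symm_apply ⟨a, hrep a⟩)⟩
  refine ⟨N, fun q => valid_colour (hM _) (M.isBlock_component _),
    ⟨⟨Equiv.ofBijective F hbij, fun r y => ?_⟩⟩⟩
  constructor
  · intro h
    have hq : ∀ i, (y i).1 = (y 0).1 := fun i => by
      rw [← hF (y i).1 (y i).2, ← hF (y 0).1 (y 0).2]
      exact Quotient.sound (Relation.EqvGen.rel _ _ ⟨r, _, i, 0, h, rfl, rfl⟩)
    let q := (y 0).1
    have hz : ∀ i, ∃ b, y i = ⟨q, b⟩ := fun i => by
      have := hq i
      generalize y i = p at this ⊢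
      obtain ⟨q', b⟩ := p
      change q' = q at this
      subst this
      exact ⟨b, rfl⟩
    choose z hz using hz
    refine ⟨q, z, ((e q).holds_iff r z).1 ?_, funext hz⟩
    show M.holds r fun i => F ⟨q, z i⟩
    simp only [← hz]
    exact h
  · rintro ⟨q, z, hz, rfl⟩
    exact ((e q).holds_iff r z).2 hz

end Vale.Agent.P307.Relational
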