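import Mathlib

/-!
# P307: abstract elementary classes in a relational vocabulary, and connected components
-/

universe u

open Cardinal hiding univ
open Set

namespace Vale.Agent.P307.Relational

/-- A relational vocabulary: the symbol `r` has arity `ar r + 1`. -/
structure Vocab : Type (u + 1) where
  Sym : Type u
  ar : Sym → ℕ

/-- A structure for the vocabulary. -/
structure Struct (V : Vocab.{u}) : Type (u + 1) where
  carrier : Type u
  holds : ∀ r : V.Sym, (Fin (V.ar r + 1) → carrier) → Prop

namespace Struct

variable {V : Vocab.{u}}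

/-- The substructure on a set. -/
abbrev restrict (M : Struct V) (s : Set M.carrier) : Struct V :=
  ⟨s, fun r x => M.holds r fun i => (x i : M.carrier)⟩

/-- An isomorphism: a bijection preserving and reflecting every relation. -/
structure Iso (M N : Struct V) where
  toEquiv : M.carrier ≃ N.carrier
  holds_iff : ∀ r x, N.holds r (fun i => toEquiv (x i)) ↔ M.holds r x

/-- `a` and `b` occur together in a tuple of some relation of `M`. -/
def Adj (M : Struct V) (a b : M.carrier) : Prop :=
  ∃ r x i j, M.holds r x ∧ x i = a ∧ x j = b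

/-- Connectedness: the equivalence relation generated by `Adj`. -/
def Connected (M : Struct V) : M.carrier → M.carrier → Prop := Relation.EqvGen M.Adj

/-- Every connected component has at most `θ` elements. -/
def ComponentsLE (M : Struct V) (θ : Cardinal.{u}) : Prop :=
  ∀ a, #{b // M.Connected a b} ≤ θ

end Struct

/-- An abstract elementary class: `mem M` says that `M` is in the class and `le M s` that the
substructure on `s` is a `≤_K`-substructure of `M`. -/
structure Class (V : Vocab.{u}) where
  mem : Struct V → Prop
  le : ∀ M : Struct V, Set M.carrier → Prop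
  mem_iso : ∀ {M N : Struct V} (_ : M.Iso N), mem M → mem N
  le_iso : ∀ {M N : Struct V} (e : M.Iso N) {s : Set M.carrier},
    le M s → le N (e.toEquiv '' s)
  mem_of_le : ∀ {M : Struct V} {s : Set M.carrier}, le M s → mem (M.restrict s) ∧ mem M
  le_refl : ∀ {M : Struct V}, mem M → le M univ
  le_trans : ∀ {M : Struct V} {s : Set M.carrier} {t : Set (M.restrict s).carrier},
    le M s → le (M.restrict s) t → le M (Subtype.val '' t)
  coherence : ∀ {M : Struct V} {s t : Set M.carrier}, le M s → le M t → s ⊆ t →
    le (M.restrict t) (Subtype.val ⁻¹' s)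
  chain : ∀ (M : Struct V) (ι : Type u) [LinearOrder ι] [WellFoundedLT ι] [Nonempty ι]
    (s : ι → Set M.carrier), Monotone s →
    (∀ i j, i ≤ j → le (M.restrict (s j)) (Subtype.val ⁻¹' s i)) → (⋃ i, s i) = univ →
      mem M ∧ ∀ i, le M (s i)
  chain_le : ∀ (M : Struct V) (ι : Type u) [LinearOrder ι] [WellFoundedLT ι] [Nonempty ι]
    (s : ι → Set M.carrier), Monotone s →
    (∀ i j, i ≤ j → le (M.restrict (s j)) (Subtype.val ⁻¹' s i)) → (∀ i, le M (s i)) →
      le M (⋃ i, s i)

namespace Class

variable {V : Vocab.{u}}

/-- The Löwenheim–Skolem property at the cardinal `ℓ`. -/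
def HasLS (K : Class V) (ℓ : Cardinal.{u}) : Prop :=
  ∀ M : Struct V, K.mem M → ∀ A : Set M.carrier, ∃ s, A ⊆ s ∧ K.le M s ∧ #s ≤ #A + ℓ

/-- `K` has a model of cardinality `κ` and any two are isomorphic. -/
def Categorical (K : Class V) (κ : Cardinal.{u}) : Prop :=
  (∃ M, K.mem M ∧ #M.carrier = κ) ∧
    ∀ M N, K.mem M → K.mem N → #M.carrier = κ → #N.carrier = κ → Nonempty (M.Iso N)

end Class

end Vale.Agent.P307.Relational
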