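import Vale.Agent.P307.Relational.Blocks

/-!
# P307: the class of coloured block sets induced by a class with small components
-/

universe u

open Cardinal hiding univ
open Set

namespace Vale.Agent.P307.Relational

variable {V : Vocab.{u}} {lam : Cardinal.{u}}

/-- The restriction of an isomorphism to a set and its image. -/
def Struct.Iso.restrictImage {M N : Struct V} (e : M.Iso N) (s : Set M.carrier) :
    (M.restrict s).Iso (N.restrict (e.toEquiv '' s)) where
  toEquiv := e.toEquiv.image s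
  holds_iff := fun r x => e.holds_iff r _

theorem Class.le_of_iso (K : Class V) {M N : Struct V} (e : M.Iso N) {s : Set M.carrier}
    {t : Set N.carrier} (h : K.le M s) (ht : e.toEquiv '' s = t) : K.le N t :=
  ht ▸ K.le_iso e h

/-- The induced class of coloured sets: valid colours, and the realisation lies in the class. -/
noncomputable def induced (K : Class V) (lam : Cardinal.{u}) : AEC (Index V lam) where
  mem N := (∀ x, Valid (N.sat x)) ∧ K.mem (realise N)
  le N s := (∀ x, Valid (N.sat x)) ∧ K.le (realise N) (Sigma.fst ⁻¹' s)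
  mem_iso := fun {M N} e h => ⟨fun x => by
    rw [show N.sat x = M.sat (e.toEquiv.symm x) by rw [← e.sat_eq, Equiv.apply_symm_apply]]
    exact h.1 _, K.mem_iso (realiseIso e) h.2⟩
  le_iso := fun {M N} e {s} h => ⟨fun x => by
    rw [show N.sat x = M.sat (e.toEquiv.symm x) by rw [← e.sat_eq, Equiv.apply_symm_apply]]
    exact h.1 _, by
      refine K.le_of_iso (realiseIso e) h.2 ?_
      ext q
      constructor
      · rintro ⟨p, hp, rfl⟩
        exact ⟨p.1, hp, rfl⟩
      · rintro ⟨w, hw, he⟩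
        obtain ⟨p, rfl⟩ := (realiseIso e).toEquiv.surjective q
        refine ⟨p, ?_, rfl⟩
        show p.1 ∈ s
        exact (e.toEquiv.injective he : w = p.1) ▸ hw⟩
  mem_of_le := fun {M s} h =>
    ⟨⟨fun x => h.1 x.1, K.mem_iso (realiseRestrict M s).symm (K.mem_of_le h.2).1⟩,
      h.1, (K.mem_of_le h.2).2⟩
  le_refl := fun h => ⟨h.1, K.le_refl h.2⟩
  le_trans := fun {M s t} hs ht => ⟨hs.1, by
    have h := K.le_trans hs.2 (K.le_iso (realiseRestrict M s) ht.2)
    convert h using 1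
    ext ⟨w, v⟩
    constructor
    · rintro ⟨⟨w', hw'⟩, hwt, rfl⟩
      exact ⟨⟨⟨w', v⟩, hw'⟩, ⟨⟨⟨w', hw'⟩, v⟩, hwt, rfl⟩, rfl⟩
    · rintro ⟨_, ⟨⟨⟨w', hw'⟩, v'⟩, hwt, rfl⟩, he⟩
      exact ⟨⟨w', hw'⟩, hwt, congrArg Sigma.fst he⟩⟩
  coherence := fun {M s t} hs ht hst => ⟨fun x => hs.1 x.1, by
    refine K.le_of_iso (realiseRestrict M t).symm
      (K.coherence hs.2 ht.2 (preimage_mono hst)) ?_
    ext q
    constructor
    · rintro ⟨p, hp, rfl⟩
      exact hp
    · exact fun hq => ⟨(realiseRestrict M t).toEquiv q, hq, rfl⟩⟩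
  chain := fun M ι _ _ _ s hm h hU => by
    have hh : ∀ i j, i ≤ j → K.le ((realise M).restrict (Sigma.fst ⁻¹' s j))
        (Subtype.val ⁻¹' (Sigma.fst ⁻¹' s i)) := fun i j hij => by
      refine K.le_of_iso (realiseRestrict M (s j)) (h i j hij).2 ?_
      ext q
      constructor
      · rintro ⟨p, hp, rfl⟩
        exact hp
      · exact fun hq => ⟨(realiseRestrict M (s j)).toEquiv.symm q, hq, rfl⟩
    have hv : ∀ x, Valid (M.sat x) := fun x => by
      obtain ⟨i, hi⟩ := mem_iUnion.1 (hU.symm ▸ mem_univ x : x ∈ ⋃ i, s i)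
      exact (h i i le_rfl).1 ⟨x, hi⟩
    obtain ⟨h1, h2⟩ := K.chain (realise M) ι (fun i => Sigma.fst ⁻¹' s i)
      (fun i j hij => preimage_mono (hm hij)) hh (by rw [← preimage_iUnion, hU]; rfl)
    exact ⟨⟨hv, h1⟩, fun i => ⟨hv, h2 i⟩⟩
  chain_le := fun M ι _ _ _ s hm h hle => by
    have hh : ∀ i j, i ≤ j → K.le ((realise M).restrict (Sigma.fst ⁻¹' s j))
        (Subtype.val ⁻¹' (Sigma.fst ⁻¹' s i)) := fun i j hij => by
      refine K.le_of_iso (realiseRestrict M (s j)) (h i j hij).2 ?_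
      ext q
      constructor
      · rintro ⟨p, hp, rfl⟩
        exact hp
      · exact fun hq => ⟨(realiseRestrict M (s j)).toEquiv.symm q, hq, rfl⟩
    refine ⟨(hle (Classical.arbitrary ι)).1, ?_⟩
    rw [preimage_iUnion]
    exact K.chain_le (realise M) ι (fun i => Sigma.fst ⁻¹' s i)
      (fun i j hij => preimage_mono (hm hij)) hh fun i => (hle i).2

theorem mk_realise_le (hlam : ℵ₀ ≤ lam) (N : Str (Index V lam)) :
    #(realise N).carrier ≤ max #N.carrier lam := by
  show #(Σ x : N.carrier, (decode (N.sat x)).carrier) ≤ _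
  rw [mk_sigma]
  refine (sum_le_sum _ (fun _ => lam) fun x => mk_decode_le _).trans ((sum_const' _ _).trans_le ?_)
  exact (mul_le_max_of_aleph0_le_right hlam)

theorem mk_le_realise {N : Str (Index V lam)} (hN : ∀ x, Valid (N.sat x)) :
    #N.carrier ≤ #(realise N).carrier :=
  mk_le_of_surjective (f := fun p : (realise N).carrier => p.1) fun x =>
    ⟨⟨x, (hN x).2.1.some⟩, rfl⟩

theorem mk_preimage_le (hlam : ℵ₀ ≤ lam) (N : Str (Index V lam)) (B : Set N.carrier) :
    #(Sigma.fst ⁻¹' B : Set (realise N).carrier) ≤ #B + lam := by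
  refine (mk_congr (realiseRestrict N B).toEquiv).symm.trans_le
    ((mk_realise_le hlam _).trans ?_)
  exact max_le le_self_add le_add_self

theorem hasLS_induced (K : Class V) (hlam : ℵ₀ ≤ lam) (hLS : K.HasLS lam) :
    (induced K lam).HasLS lam := by
  rintro N ⟨hv, hN⟩ A
  let f : Set (realise N).carrier → Set (realise N).carrier := fun T =>
    (hLS (realise N) hN (Sigma.fst ⁻¹' (Sigma.fst '' T))).choose
  have hf : ∀ T, Sigma.fst ⁻¹' (Sigma.fst '' T) ⊆ f T ∧ K.le (realise N) (f T) ∧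
      #(f T) ≤ #(Sigma.fst ⁻¹' (Sigma.fst '' T) : Set (realise N).carrier) + lam := fun T =>
    (hLS (realise N) hN _).choose_spec
  let s₀ := (hLS (realise N) hN (Sigma.fst ⁻¹' A)).choose
  have hs₀ : Sigma.fst ⁻¹' A ⊆ s₀ ∧ K.le (realise N) s₀ ∧
      #s₀ ≤ #(Sigma.fst ⁻¹' A : Set (realise N).carrier) + lam :=
    (hLS (realise N) hN _).choose_spec
  let s : ℕ → Set (realise N).carrier := fun n => f^[n] s₀
  have hsucc : ∀ n, s (n + 1) = f (s n) := fun n => Function.iterate_succ_apply' f n s₀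
  have hle : ∀ n, K.le (realise N) (s n) := fun n => by
    cases n with
    | zero => exact hs₀.2.1
    | succ n => rw [hsucc]; exact (hf _).2.1
  have hstep : ∀ n, Sigma.fst ⁻¹' (Sigma.fst '' s n) ⊆ s (n + 1) := fun n => by
    rw [hsucc]; exact (hf _).1
  have hmono : Monotone s :=
    monotone_nat_of_le_succ fun n => (subset_preimage_image _ _).trans (hstep n)
  have haa : ∀ m : Cardinal.{u}, m + lam + lam = m + lam := fun m => by
    rw [add_assoc, add_eq_self hlam]
  have hcard : ∀ n, #(s n) ≤ #A + lam := fun n => by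
    induction n with
    | zero =>
      refine hs₀.2.2.trans ((add_le_add (mk_preimage_le hlam N A) le_rfl).trans ?_)
      exact (haa _).le
    | succ n ihn =>
      rw [hsucc]
      refine (hf _).2.2.trans ((add_le_add (mk_preimage_le hlam N _) le_rfl).trans ?_)
      rw [haa]
      exact (add_le_add (mk_image_le.trans ihn) le_rfl).trans (haa _).le
  have hwf : WellFoundedLT (ULift.{u} ℕ) := ⟨InvImage.wf ULift.down wellFounded_lt⟩
  let B : Set N.carrier := ⋃ n : ULift.{u} ℕ, Sigma.fst '' s n.down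
  have hB : Sigma.fst ⁻¹' B = ⋃ n : ULift.{u} ℕ, s n.down := by
    refine subset_antisymm ?_ (iUnion_subset fun n => ?_)
    · rw [preimage_iUnion]
      exact iUnion_subset fun n =>
        (hstep n.down).trans (subset_iUnion (fun n : ULift.{u} ℕ => s n.down) ⟨n.down + 1⟩)
    · rw [preimage_iUnion]
      exact (subset_preimage_image Sigma.fst (s n.down)).trans
        (subset_iUnion (fun n : ULift.{u} ℕ => Sigma.fst ⁻¹' (Sigma.fst '' s n.down)) n)
  refine ⟨B, fun a ha => mem_iUnion.2 ⟨⟨0⟩, ⟨a, (hv a).2.1.some⟩, hs₀.1 ha, rfl⟩, ⟨hv, ?_⟩, ?_⟩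
  · rw [hB]
    exact K.chain_le (realise N) (ULift.{u} ℕ) (fun n => s n.down) (fun _ _ h => hmono h)
      (fun i j hij => K.coherence (hle _) (hle _) (hmono hij)) fun n => hle n.down
  · refine (mk_iUnion_le _).trans ?_
    have h1 : (⨆ n : ULift.{u} ℕ, #(Sigma.fst '' s n.down)) ≤ #A + lam :=
      ciSup_le' fun n => mk_image_le.trans (hcard n.down)
    have h2 : #(ULift.{u} ℕ) ≤ #A + lam := by
      rw [mk_uLift, mk_nat, lift_aleph0]
      exact hlam.trans le_add_self
    exact (mul_le_mul' h2 h1).trans (mul_eq_self (hlam.trans le_add_self)).le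

/-- Eventual categoricity when components are small. -/
theorem categorical_transfer (hlam : ℵ₀ ≤ lam) (hV : #V.Sym ≤ lam) (K : Class V)
    (hLS : K.HasLS lam) (hcomp : ∀ M, K.mem M → M.ComponentsLE lam) {κ κ' : Cardinal.{u}}
    (hκ : 2 ^ lam < κ) (hκ' : 2 ^ lam < κ') (hcat : K.Categorical κ) : K.Categorical κ' := by
  have card : ∀ {μ : Cardinal.{u}}, 2 ^ lam < μ → ∀ {N : Str (Index V lam)},
      (∀ x, Valid (N.sat x)) → (#N.carrier = μ ↔ #(realise N).carrier = μ) := by
    intro μ hμ N hN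
    have hlamμ : lam < μ := (cantor lam).trans hμ
    constructor <;> intro h
    · exact le_antisymm ((mk_realise_le hlam N).trans (max_le h.le hlamμ.le))
        (h.symm.trans_le (mk_le_realise hN))
    · refine le_antisymm (h ▸ mk_le_realise hN) (not_lt.1 fun hlt => ?_)
      exact (h ▸ (mk_realise_le hlam N)).not_gt (max_lt hlt hlamμ)
  obtain ⟨⟨M₀, hM₀, hM₀κ⟩, huniq⟩ := hcat
  have hcat' : (induced K lam).Categorical κ := by
    obtain ⟨N₀, hv₀, ⟨e₀⟩⟩ := exists_realise (hcomp M₀ hM₀)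
    refine ⟨⟨N₀, ⟨hv₀, K.mem_iso e₀.symm hM₀⟩,
      (card hκ hv₀).2 ((mk_congr e₀.toEquiv).trans hM₀κ)⟩, ?_⟩
    intro N₁ N₂ h₁ h₂ c₁ c₂
    obtain ⟨e⟩ := huniq _ _ h₁.2 h₂.2 ((card hκ h₁.1).1 c₁) ((card hκ h₂.1).1 c₂)
    exact nonempty_iso_of_realise h₁.1 h₂.1 e
  obtain ⟨⟨N₀, ⟨hv₀, hN₀⟩, hN₀κ⟩, huniq'⟩ := P307.Categorical.transfer hlam (mk_index_le hlam hV)
    (induced K lam) (hasLS_induced K hlam hLS) hκ hcat' hκ'
  refine ⟨⟨realise N₀, hN₀, (card hκ' hv₀).1 hN₀κ⟩, fun M M' hM hM' c c' => ?_⟩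
  obtain ⟨N, hv, ⟨e⟩⟩ := exists_realise (hcomp M hM)
  obtain ⟨N', hv', ⟨e'⟩⟩ := exists_realise (hcomp M' hM')
  obtain ⟨f⟩ := huniq' N N' ⟨hv, K.mem_iso e.symm hM⟩ ⟨hv', K.mem_iso e'.symm hM'⟩
    ((card hκ' hv).2 ((mk_congr e.toEquiv).trans c))
    ((card hκ' hv').2 ((mk_congr e'.toEquiv).trans c'))
  exact ⟨(e.symm.trans (realiseIso f)).trans e'⟩

end Vale.Agent.P307.Relational
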